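import Vale.Agent.Lib.LF.Free
import Vale.Agent.Lib.LF.Decomp

namespace Vale.Agent.Lib.LF

open MonoidAlgebra Vale.Agent.Lib.P201

theorem exists_ann_vec_aux {K G X : Type*} [Ring K] [Group G] {N : Subgroup G} [N.Normal]
    {t : X → G} {len : G → ℕ} (hl : IsPreLen t len) (hmem : ∀ x, t x ∈ N) (n : ℕ) (m : ℕ) :
    ∀ (T : Finset G), T.card = m → DownClosed t len T → Rooted N len T →
      ∀ a : Fin n → MonoidAlgebra K G, a ≠ 0 → (∀ j, (a j).coeff.support ⊆ T) →
      ∃ c : Fin n → MonoidAlgebra K G,
        (∃ j, mapDomainRingHom K (QuotientGroup.mk' N) (c j) ≠ 0) ∧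
        ∀ b : Fin n → MonoidAlgebra K G, ∑ j, a j * b j = 0 → ∑ j, c j * b j = 0 := by
  classical
  induction m using Nat.strong_induction_on with
  | _ m ih =>
    intro T hcard hT hR a ha hsupp
    by_cases hπ : ∀ j, mapDomainRingHom K (QuotientGroup.mk' N) (a j) = 0
    swap
    · push Not at hπ
      exact ⟨a, hπ, fun b hb => hb⟩
    choose c hac hc using fun j => decomp hl hmem T hT hR (a j) (hsupp j) (hπ j)
    -- annihilators
    have hkill : ∀ b : Fin n → MonoidAlgebra K G, ∑ j, a j * b j = 0 →
        ∀ x, ∑ j, c j x * b j = 0 := by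
      intro b hb x
      have hz : (∑ j, (c j).mapRange (fun u => u * b j) (zero_mul (b j))) = 0 := by
        apply free_right hl
        rw [← Finsupp.sum_finsetSum_index (fun x => mul_zero _) (fun x u v => mul_add _ _ _)]
        rw [← hb]
        refine Finset.sum_congr rfl fun j _ => ?_
        rw [Finsupp.sum_mapRange_index (fun x => mul_zero _)]
        conv_rhs => rw [hac j]
        rw [Finsupp.sum_mul]
        simp only [mul_assoc]
      have := DFunLike.congr_fun hz x
      simpa [Finsupp.finsetSum_apply] using this
    -- some coefficient is nonzero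
    obtain ⟨j0, x, hx⟩ : ∃ j x, c j x ≠ 0 := by
      by_contra hcon
      push Not at hcon
      apply ha
      funext j
      rw [hac j, Finsupp.sum]
      exact Finset.sum_eq_zero fun x _ => by rw [hcon j x, mul_zero]
    -- a top vertex
    have hTne : T.Nonempty := by
      obtain ⟨j, g, hg⟩ : ∃ j g, (a j).coeff g ≠ 0 := by
        by_contra hcon
        push Not at hcon
        apply ha
        funext j
        rw [Pi.zero_apply, ← coeff_eq_zero]
        exact Finsupp.ext (hcon j)
      exact ⟨g, hsupp j (Finsupp.mem_support_iff.2 hg)⟩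
    obtain ⟨g0, hg0, hmax⟩ := Finset.exists_max_image T len hTne
    have hT' : DownClosed t len (T.erase g0) := by
      intro g hg y hy
      have hgT := Finset.mem_of_mem_erase hg
      refine Finset.mem_erase.2 ⟨?_, hT g hgT y hy⟩
      intro h
      rw [h] at hy
      exact absurd (hmax g hgT) (not_le.2 hy)
    have hR' : Rooted N len (T.erase g0) := fun g hg g' hg' =>
      hR g (Finset.mem_of_mem_erase hg) g' (Finset.mem_of_mem_erase hg')
    have hcard' : (T.erase g0).card < m := by
      rw [← hcard]; exact Finset.card_erase_lt_of_mem hg0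
    by_cases hg0c : ∃ j, g0 ∈ (c j x).coeff.support
    · obtain ⟨j1, hj1⟩ := hg0c
      have hdown : len (act t (x, true) g0) < len g0 := by
        have h1 := (hc j1 x g0 hj1).2
        have h2 := hmax _ h1
        have h3 := hl.step x g0
        have : act t (x, true) g0 = t x * g0 := by simp [act]
        rw [this]
        omega
      have hne : (fun j => single (t x) (1 : K) * c j x) ≠ 0 := by
        intro h0
        apply hx
        have h0' : single (t x) (1 : K) * c j0 x = 0 := congrFun h0 j0
        have : single (t x)⁻¹ (1 : K) * (single (t x) (1 : K) * c j0 x) = c j0 x := by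
          rw [← mul_assoc, single_mul_single, inv_mul_cancel, one_mul, ← one_def, one_mul]
        rw [← this, h0', mul_zero]
      have hs : ∀ j, (single (t x) (1 : K) * c j x).coeff.support ⊆ T.erase g0 := by
        intro j h' hh'
        rw [Finsupp.mem_support_iff, coeff_single_mul_apply, one_mul] at hh'
        have hmem' := hc j x _ (Finsupp.mem_support_iff.2 hh')
        rw [mul_inv_cancel_left] at hmem'
        refine Finset.mem_erase.2 ⟨?_, hmem'.2⟩
        intro h
        subst h
        have h2 := hmax _ hmem'.1
        have h3 := hl.step x ((t x)⁻¹ * h')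
        rw [mul_inv_cancel_left] at h3
        have hdown' : len (act t (x, false) h') < len h' := by
          have : act t (x, false) h' = (t x)⁻¹ * h' := by simp [act]
          rw [this]
          omega
        have := hl.uniq _ _ _ hdown hdown'
        simp at this
      obtain ⟨c', hc', hann⟩ := ih _ hcard' (T.erase g0) rfl hT' hR' _ hne hs
      refine ⟨c', hc', fun b hb => hann b ?_⟩
      simp only [mul_assoc]
      rw [← Finset.mul_sum, hkill b hb x, mul_zero]
    · push Not at hg0c
      have hne : (fun j => c j x) ≠ 0 := fun h0 => hx (congrFun h0 j0)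
      have hs : ∀ j, (c j x).coeff.support ⊆ T.erase g0 := by
        intro j h' hh'
        refine Finset.mem_erase.2 ⟨?_, (hc j x h' hh').1⟩
        intro h
        exact hg0c j (h ▸ hh')
      obtain ⟨c', hc', hann⟩ := ih _ hcard' (T.erase g0) rfl hT' hR' _ hne hs
      exact ⟨c', hc', fun b hb => hann b (hkill b hb x)⟩

/-- Vector version of the key step. -/
theorem exists_ann_vec {K G X : Type*} [Ring K] [Group G] {N : Subgroup G} [N.Normal] {t : X → G}
    {len : G → ℕ} (hl : IsPreLen t len) (hmem : ∀ x, t x ∈ N) (T : Finset G)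
    (hT : DownClosed t len T) (hR : Rooted N len T) (n : ℕ)
    (a : Fin n → MonoidAlgebra K G) (ha : a ≠ 0) (hs : ∀ j, (a j).coeff.support ⊆ T) :
    ∃ c : Fin n → MonoidAlgebra K G,
      (∃ j, mapDomainRingHom K (QuotientGroup.mk' N) (c j) ≠ 0) ∧
      ∀ b : Fin n → MonoidAlgebra K G, ∑ j, a j * b j = 0 → ∑ j, c j * b j = 0 :=
  exists_ann_vec_aux hl hmem n T.card T rfl hT hR a ha hs

end Vale.Agent.Lib.LF
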