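import Mathlib

namespace Vale.Agent.Lib.LF

open MonoidAlgebra

section antiMap

variable {R S G : Type*} [Ring R] [Ring S] [Group G]

/-- the map `∑ r g ↦ ∑ f r g⁻¹`. -/
noncomputable def antiMap (f : R →+ S) (a : MonoidAlgebra R G) : MonoidAlgebra S G :=
  MonoidAlgebra.map f (mapDomain (fun g : G => g⁻¹) a)

theorem antiMap_single (f : R →+ S) (g : G) (r : R) :
    antiMap f (single g r) = single g⁻¹ (f r) := by
  simp [antiMap]

theorem antiMap_add (f : R →+ S) (a b : MonoidAlgebra R G) :
    antiMap f (a + b) = antiMap f a + antiMap f b := by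
  unfold antiMap
  rw [mapDomain_add, MonoidAlgebra.map_add]

theorem antiMap_zero (f : R →+ S) : antiMap f (0 : MonoidAlgebra R G) = 0 := by
  unfold antiMap
  rw [mapDomain_zero, MonoidAlgebra.map_zero]

theorem antiMap_antiMap (f : R →+ S) (f' : S →+ R) (h : ∀ r, f' (f r) = r)
    (a : MonoidAlgebra R G) : antiMap f' (antiMap f a) = a := by
  induction a using MonoidAlgebra.induction_linear with
  | zero => simp [antiMap_zero]
  | add a b ha hb => rw [antiMap_add, antiMap_add, ha, hb]
  | single g r => simp [antiMap_single, h]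

theorem antiMap_mul (f : R →+ S) (hf : ∀ r s, f (r * s) = f s * f r) (a b : MonoidAlgebra R G) :
    antiMap f (a * b) = antiMap f b * antiMap f a := by
  induction a using MonoidAlgebra.induction_linear with
  | zero => simp [antiMap_zero]
  | add a a' ha ha' => rw [add_mul, antiMap_add, antiMap_add, mul_add, ha, ha']
  | single g r =>
    induction b using MonoidAlgebra.induction_linear with
    | zero => simp [antiMap_zero]
    | add b b' hb hb' => rw [mul_add, antiMap_add, antiMap_add, add_mul, hb, hb']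
    | single h s =>
      rw [single_mul_single, antiMap_single, antiMap_single, antiMap_single, single_mul_single,
        mul_inv_rev, hf]

theorem map_antiMap (f : R →+ S) (N : Subgroup G) [N.Normal] (a : MonoidAlgebra R G) :
    mapDomainRingHom S (QuotientGroup.mk' N) (antiMap f a) =
      antiMap f (mapDomainRingHom R (QuotientGroup.mk' N) a) := by
  induction a using MonoidAlgebra.induction_linear with
  | zero => simp [antiMap_zero]
  | add a b ha hb => rw [antiMap_add, map_add, map_add, antiMap_add, ha, hb]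
  | single g r => simp [antiMap_single]

end antiMap

/-- The anti-isomorphism `∑ k g ↦ ∑ op k g⁻¹` from `K[G]` to `Kᵐᵒᵖ[G]` and its inverse. -/
theorem exists_antiIso (K G : Type*) [Ring K] [Group G] (N : Subgroup G) [N.Normal] :
    ∃ (ι : MonoidAlgebra K G → MonoidAlgebra Kᵐᵒᵖ G)
      (κ : MonoidAlgebra Kᵐᵒᵖ G → MonoidAlgebra K G),
      (∀ a b, ι (a * b) = ι b * ι a) ∧ (∀ a b, κ (a * b) = κ b * κ a) ∧
      (∀ a, κ (ι a) = a) ∧ ι 0 = 0 ∧ κ 0 = 0 ∧
      ∀ d, mapDomainRingHom K (QuotientGroup.mk' N) (κ d) = 0 →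
        mapDomainRingHom Kᵐᵒᵖ (QuotientGroup.mk' N) d = 0 := by
  let f : K →+ Kᵐᵒᵖ := (MulOpposite.opAddEquiv : K ≃+ Kᵐᵒᵖ).toAddMonoidHom
  let f' : Kᵐᵒᵖ →+ K := (MulOpposite.opAddEquiv : K ≃+ Kᵐᵒᵖ).symm.toAddMonoidHom
  have hf : ∀ r s, f (r * s) = f s * f r := fun r s => MulOpposite.op_mul r s
  have hf' : ∀ r s, f' (r * s) = f' s * f' r := fun r s => MulOpposite.unop_mul r s
  have h1 : ∀ r, f' (f r) = r := fun r => rfl
  have h2 : ∀ r, f (f' r) = r := fun r => rfl
  refine ⟨antiMap f, antiMap f', antiMap_mul f hf, antiMap_mul f' hf', antiMap_antiMap f f' h1,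
    antiMap_zero f, antiMap_zero f', fun d hd => ?_⟩
  rw [map_antiMap] at hd
  rw [← antiMap_antiMap f' f h2 (mapDomainRingHom Kᵐᵒᵖ (QuotientGroup.mk' N) d), hd, antiMap_zero]

end Vale.Agent.Lib.LF
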