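import Vale.Agent.Lib.LF.Sep

namespace Vale.Agent.Lib.LF

open scoped TensorProduct

/-- A group with an injective homomorphism to the integers is free. -/
lemma isFreeGroup_of_injective_int {H : Type*} [Group H] (ψ : H →* Multiplicative ℤ)
    (hψ : Function.Injective ψ) : IsFreeGroup H := by
  have h1 : IsFreeGroup (Multiplicative ℤ) :=
    IsFreeGroup.ofMulEquiv (FreeGroup.mulEquivIntOfUnique (α := Unit))
  have h2 : IsFreeGroup ψ.range := inferInstance
  exact IsFreeGroup.ofMulEquiv (MonoidHom.ofInjective hψ).symm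

/-- A finitely generated group with an injective homomorphism to the rationals is free. -/
lemma isFreeGroup_of_injective_rat {H : Type*} [Group H] [hfg : Group.FG H]
    (ψ : H →* Multiplicative ℚ) (hψ : Function.Injective ψ) : IsFreeGroup H := by
  classical
  obtain ⟨S, hS⟩ := Group.fg_def.1 hfg
  obtain ⟨b, hb⟩ := IsLocalization.exist_integer_multiples_of_finset (nonZeroDivisors ℤ)
    (S.image fun h => Multiplicative.toAdd (ψ h))
  have hb0 : ((b : ℤ) : ℚ) ≠ 0 := by
    have : (b : ℤ) ≠ 0 := nonZeroDivisors.coe_ne_zero b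
    exact_mod_cast this
  have hint : ∀ h : H, ∃ k : ℤ, (k : ℚ) = (b : ℤ) * Multiplicative.toAdd (ψ h) := by
    intro h
    have hmem : h ∈ Subgroup.closure (S : Set H) := by rw [hS]; trivial
    induction hmem using Subgroup.closure_induction with
    | mem x hx =>
      obtain ⟨k, hk⟩ := hb _ (Finset.mem_image_of_mem _ hx)
      refine ⟨k, ?_⟩
      simpa [zsmul_eq_mul] using hk
    | one => exact ⟨0, by simp⟩
    | mul x y _ _ hx hy =>
      obtain ⟨k, hk⟩ := hx
      obtain ⟨l, hl⟩ := hy
      refine ⟨k + l, ?_⟩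
      rw [map_mul, toAdd_mul, mul_add, ← hk, ← hl]
      push_cast
      ring
    | inv x _ hx =>
      obtain ⟨k, hk⟩ := hx
      refine ⟨-k, ?_⟩
      rw [map_inv, toAdd_inv, mul_neg, ← hk]
      push_cast
      ring
  choose χ hχ using hint
  have hmul : ∀ x y, χ (x * y) = χ x + χ y := by
    intro x y
    have : ((χ (x * y) : ℤ) : ℚ) = ((χ x + χ y : ℤ) : ℚ) := by
      rw [hχ, map_mul, toAdd_mul, mul_add, ← hχ, ← hχ]
      push_cast
      ring
    exact_mod_cast this
  let χ' : H →* Multiplicative ℤ :=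
    MonoidHom.mk' (fun h => Multiplicative.ofAdd (χ h)) fun x y => by
      rw [hmul, ofAdd_add]
  apply isFreeGroup_of_injective_int χ'
  rw [injective_iff_map_eq_one]
  intro h hh
  have h0 : χ h = 0 := by
    have : Multiplicative.ofAdd (χ h) = 1 := hh
    simpa using this
  have h1 := hχ h
  rw [h0] at h1
  have h2 : Multiplicative.toAdd (ψ h) = 0 := by
    have : ((b : ℤ) : ℚ) * Multiplicative.toAdd (ψ h) = 0 := by rw [← h1]; simp
    exact (mul_eq_zero.1 this).resolve_left hb0
  have h3 : ψ h = 1 := by simpa using h2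
  exact (injective_iff_map_eq_one ψ).1 hψ h h3

/-- Finitely many elements of infinite order of a commutative group are separated from `1` by a
homomorphism to the rationals. -/
lemma exists_hom_rat {Z : Type*} [CommGroup Z] (D : Finset Z)
    (hD : ∀ d ∈ D, ∀ k : ℕ, 0 < k → d ^ k ≠ 1) :
    ∃ f : Z →* Multiplicative ℚ, ∀ d ∈ D, f d ≠ 1 := by
  let A := Additive Z
  let ι : A →ₗ[ℤ] ℚ ⊗[ℤ] A := TensorProduct.mk ℤ ℚ A 1
  have hloc : IsLocalizedModule (nonZeroDivisors ℤ) ι :=
    (isLocalizedModule_iff_isBaseChange (nonZeroDivisors ℤ) ℚ ι).2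
      (TensorProduct.isBaseChange ℤ A ℚ)
  have hne : ∀ d : D, ι (Additive.ofMul (d : Z)) ≠ 0 := by
    intro d h0
    obtain ⟨s, hs⟩ := (IsLocalizedModule.eq_zero_iff (nonZeroDivisors ℤ) ι).1 h0
    have hs0 : (s : ℤ) ≠ 0 := nonZeroDivisors.coe_ne_zero s
    have h1 : (d : Z) ^ (s : ℤ) = 1 := by
      have : (s : ℤ) • Additive.ofMul (d : Z) = 0 := hs
      rw [← ofMul_zpow] at this
      exact ofMul_eq_zero.1 this
    have h2 : (d : Z) ^ (s : ℤ).natAbs = 1 := by
      rcases Int.natAbs_eq (s : ℤ) with h | h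
      · rw [h, zpow_natCast] at h1
        simpa using h1
      · rw [h, zpow_neg, zpow_natCast, inv_eq_one] at h1
        simpa using h1
    exact hD d d.2 _ (Int.natAbs_pos.2 hs0) h2
  obtain ⟨F, hF⟩ := Module.exists_dual_forall_apply_ne_zero (K := ℚ)
    (fun d : D => ι (Additive.ofMul (d : Z))) hne
  refine ⟨MonoidHom.mk' (fun z => Multiplicative.ofAdd (F (ι (Additive.ofMul z)))) ?_, ?_⟩
  · intro x y
    rw [ofMul_mul, map_add, map_add, ofAdd_add]
  · intro d hd h1
    apply hF ⟨d, hd⟩
    have : Multiplicative.ofAdd (F (ι (Additive.ofMul d))) = 1 := h1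
    simpa using this

open scoped IsMulCommutative in
/-- The same for a group with the commutativity mixin. -/
lemma exists_hom_rat' {Z : Type*} [Group Z] [IsMulCommutative Z] (D : Finset Z)
    (hD : ∀ d ∈ D, ∀ k : ℕ, 0 < k → d ^ k ≠ 1) :
    ∃ f : Z →* Multiplicative ℚ, ∀ d ∈ D, f d ≠ 1 :=
  exists_hom_rat D hD

/-- A locally free normal subgroup is residually locally free relative to `G` (take `M = ⊥`). -/
theorem sep_of_locallyFree {G : Type*} [Group G] (N : Subgroup G)
    (hN : ∀ H : Subgroup G, H ≤ N → H.FG → IsFreeGroup H) : SepLocallyFree N := by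
  intro D hD
  refine ⟨⊥, inferInstance, bot_le, ?_, ?_⟩
  · intro d hd hmem
    exact (hD d hd).2 (Subgroup.mem_bot.1 hmem)
  · intro H hH hfg
    let e : G ⧸ (⊥ : Subgroup G) ≃* G := QuotientGroup.quotientBot
    have hle : H.map (e : G ⧸ (⊥ : Subgroup G) →* G) ≤ N := by
      rintro _ ⟨x, hx, rfl⟩
      obtain ⟨n, hn, rfl⟩ := hH hx
      exact hn
    have hfg' : (H.map (e : G ⧸ (⊥ : Subgroup G) →* G)).FG := by
      classical
      obtain ⟨S, hS⟩ := hfg
      exact ⟨S.image (e : G ⧸ (⊥ : Subgroup G) →* G),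
        by rw [Finset.coe_image, ← MonoidHom.map_closure, hS]⟩
    have hfree : IsFreeGroup (H.map (e : G ⧸ (⊥ : Subgroup G) →* G)) := hN _ hle hfg'
    exact IsFreeGroup.ofMulEquiv (e.subgroupMap H).symm

/-- A central torsion-free subgroup is residually locally free relative to `G`
(kernel of a homomorphism `N → ℚ` not vanishing on the given finite set). -/
theorem sep_of_central {G : Type*} [Group G] (N : Subgroup G) (hc : N ≤ Subgroup.center G)
    (htf : ∀ x ∈ N, ∀ k : ℕ, 0 < k → x ^ k = 1 → x = 1) : SepLocallyFree N := by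
  classical
  intro D hD
  -- the finite set, inside the centre
  let D' : Finset (Subgroup.center G) := D.attach.image fun d => ⟨d.1, hc (hD d.1 d.2).1⟩
  have hD' : ∀ d ∈ D', ∀ k : ℕ, 0 < k → d ^ k ≠ 1 := by
    intro d hd k hk h1
    obtain ⟨d0, -, rfl⟩ := Finset.mem_image.1 hd
    have h2 : (d0.1 : G) ^ k = 1 := congrArg Subtype.val h1
    exact (hD d0.1 d0.2).2 (htf _ (hD d0.1 d0.2).1 k hk h2)
  obtain ⟨f, hf⟩ := exists_hom_rat' D' hD'
  let g : N →* Multiplicative ℚ := f.comp (Subgroup.inclusion hc)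
  let M : Subgroup G := g.ker.map N.subtype
  have hMN : M ≤ N := Subgroup.map_subtype_le _
  have hMmem : ∀ n : N, (n : G) ∈ M ↔ g n = 1 := by
    intro n
    constructor
    · rintro ⟨n', hn', he⟩
      have : n' = n := Subtype.ext he
      rw [← this]
      exact hn'
    · intro h
      exact ⟨n, h, rfl⟩
  have hnormal : M.Normal := by
    refine ⟨fun n hn x => ?_⟩
    have hcen := Subgroup.mem_center_iff.1 (hc (hMN hn)) x
    have : x * n * x⁻¹ = n := by rw [hcen, mul_assoc, mul_inv_cancel, mul_one]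
    rwa [this]
  refine ⟨M, hnormal, hMN, ?_, ?_⟩
  · intro d hd hmem
    have h1 := (hMmem ⟨d, (hD d hd).1⟩).1 hmem
    exact hf ⟨d, hc (hD d hd).1⟩ (Finset.mem_image.2 ⟨⟨d, hd⟩, Finset.mem_attach _ _, rfl⟩) h1
  · intro H hH hfg
    let π : N →* N.map (QuotientGroup.mk' M) := (QuotientGroup.mk' M).subgroupMap N
    have hπ : Function.Surjective π := (QuotientGroup.mk' M).subgroupMap_surjective N
    have hπ1 : ∀ n : N, π n = 1 ↔ g n = 1 := by
      intro n
      rw [← hMmem n, ← QuotientGroup.eq_one_iff]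
      constructor
      · intro h
        exact congrArg Subtype.val h
      · intro h
        exact Subtype.ext h
    have hker : π.ker ≤ g.ker := fun n hn => (hπ1 n).1 hn
    let φ : N.map (QuotientGroup.mk' M) →* Multiplicative ℚ := π.liftOfSurjective hπ ⟨g, hker⟩
    have hφ : ∀ n : N, φ (π n) = g n := fun n =>
      π.liftOfRightInverse_comp_apply _ _ ⟨g, hker⟩ n
    have hφinj : Function.Injective φ := by
      rw [injective_iff_map_eq_one]
      intro y hy
      obtain ⟨n, rfl⟩ := hπ y
      rw [hφ] at hy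
      exact (hπ1 n).2 hy
    have : Group.FG H := (Group.fg_iff_subgroup_fg H).2 hfg
    exact isFreeGroup_of_injective_rat (φ.comp (Subgroup.inclusion hH))
      (hφinj.comp (Subgroup.inclusion_injective hH))

end Vale.Agent.Lib.LF
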