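import Vale.Agent.Lib.LF.Key

namespace Vale.Agent.Lib.LF

open MonoidAlgebra

/-- Direct finiteness of matrix rings passes from `K[G/N]` to `K[G]`. -/
theorem dedekindFinite_matrix {K G : Type*} [Ring K] [Group G] (N : Subgroup G) [N.Normal]
    (hN : ∀ H : Subgroup G, H ≤ N → H.FG → IsFreeGroup H) (n : ℕ)
    (h : IsDedekindFiniteMonoid (Matrix (Fin n) (Fin n) (MonoidAlgebra K (G ⧸ N)))) :
    IsDedekindFiniteMonoid (Matrix (Fin n) (Fin n) (MonoidAlgebra K G)) := by
  classical
  refine ⟨?_⟩
  intro A B hAB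
  set p := mapDomainRingHom K (QuotientGroup.mk' N) with hp
  set π := p.mapMatrix (m := Fin n) with hπ
  have h1 : π A * π B = 1 := by rw [← map_mul, hAB, map_one]
  have h2 : π B * π A = 1 := h.mul_eq_one_symm h1
  by_contra hne
  have hE : (1 - B * A) ≠ 0 := by
    intro h0
    exact hne (sub_eq_zero.1 h0).symm
  have hEB : (1 - B * A) * B = 0 := by
    rw [sub_mul, one_mul, mul_assoc, hAB, mul_one, sub_self]
  obtain ⟨i, hi⟩ : ∃ i, (1 - B * A) i ≠ 0 := by
    by_contra hcon
    push Not at hcon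
    exact hE (funext hcon)
  obtain ⟨c, ⟨j, hj⟩, hc⟩ := exists_ann_locallyFree N hN n ((1 - B * A) i) hi
  have hcB : ∀ k, ∑ j, c j * B j k = 0 := by
    intro k
    apply hc
    have := congrFun (congrFun hEB i) k
    rw [Matrix.mul_apply] at this
    exact this
  have hv : Matrix.vecMul (fun j => p (c j)) (π B) = 0 := by
    funext k
    have := congrArg p (hcB k)
    rw [map_sum, map_zero] at this
    simp only [map_mul] at this
    simpa [Matrix.vecMul, dotProduct, hπ] using this
  have hv2 : Matrix.vecMul (fun j => p (c j)) (π B * π A) = 0 := by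
    rw [← Matrix.vecMul_vecMul, hv, Matrix.zero_vecMul]
  rw [h2, Matrix.vecMul_one] at hv2
  exact hj (congrFun hv2 j)

/-- Direct finiteness passes from `K[G/N]` to `K[G]`. -/
theorem dedekindFinite {K G : Type*} [Ring K] [Group G] (N : Subgroup G) [N.Normal]
    (hN : ∀ H : Subgroup G, H ≤ N → H.FG → IsFreeGroup H)
    (h : IsDedekindFiniteMonoid (MonoidAlgebra K (G ⧸ N))) :
    IsDedekindFiniteMonoid (MonoidAlgebra K G) := by
  classical
  refine ⟨?_⟩
  intro A B hAB
  set p := mapDomainRingHom K (QuotientGroup.mk' N) with hp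
  have h1 : p A * p B = 1 := by rw [← map_mul, hAB, map_one]
  have h2 : p B * p A = 1 := h.mul_eq_one_symm h1
  by_contra hne
  have hE : (1 - B * A) ≠ 0 := by
    intro h0
    exact hne (sub_eq_zero.1 h0).symm
  have hEB : (1 - B * A) * B = 0 := by
    rw [sub_mul, one_mul, mul_assoc, hAB, mul_one, sub_self]
  have hi : (fun _ : Fin 1 => (1 - B * A)) ≠ 0 := by
    intro h0
    exact hE (congrFun h0 0)
  obtain ⟨c, ⟨j, hj⟩, hc⟩ := exists_ann_locallyFree N hN 1 (fun _ => (1 - B * A)) hi
  have hcB : ∑ j, c j * (fun _ : Fin 1 => B) j = 0 := by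
    apply hc
    simpa using hEB
  have hj0 : j = 0 := Subsingleton.elim _ _
  subst hj0
  simp only [Finset.univ_unique, Fin.default_eq_zero, Fin.isValue, Finset.sum_singleton] at hcB
  have h3 : p (c 0) * p B = 0 := by rw [← map_mul, hcB, map_zero]
  apply hj
  calc p (c 0) = p (c 0) * (p B * p A) := by rw [h2, mul_one]
    _ = 0 := by rw [← mul_assoc, h3, zero_mul]

end Vale.Agent.Lib.LF
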