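import Vale.Agent.Lib.P201.FKDefs

/-!
Locally free kernels (used for P201 and P194), see notes/P201/blueprint_locallyfree.md.
Same picture as in `FKDefs`, but the free group generated by the `t x` is only a subgroup `H` of the
normal subgroup `N`, and need not be normal.  The forest on `G` has edges `h — t x * h`, its
components are the right cosets `H h`.
-/

namespace Vale.Agent.Lib.LF

open Vale.Agent.Lib.P201

/-- `len` is a height function turning the graph `h — t x * h` on `G` into a rooted forest. -/
structure IsPreLen {G X : Type*} [Group G] (t : X → G) (len : G → ℕ) : Prop where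
  step : ∀ x g, len (t x * g) = len g + 1 ∨ len g = len (t x * g) + 1
  uniq : ∀ g (y y' : X × Bool), len (act t y g) < len g → len (act t y' g) < len g → y = y'
  desc : ∀ g, 0 < len g → ∃ y : X × Bool, len (act t y g) < len g

/-- `T` contains at most one root in every coset of `N`. -/
def Rooted {G : Type*} [Group G] (N : Subgroup G) (len : G → ℕ) (T : Finset G) : Prop :=
  ∀ g ∈ T, ∀ g' ∈ T, len g = 0 → len g' = 0 → g⁻¹ * g' ∈ N → g = g'

end Vale.Agent.Lib.LF
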