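import Vale.Agent.Lib.LF.Defs

namespace Vale.Agent.Lib.LF

open MonoidAlgebra Vale.Agent.Lib.P201

theorem free_right_coeff {K G X : Type*} [Ring K] [Group G] {t : X → G}
    (z : X →₀ MonoidAlgebra K G)
    (h : z.sum (fun x zx => (single (t x) (1 : K) - 1) * zx) = 0) (g : G) :
    ∑ x ∈ z.support, ((z x).coeff ((t x)⁻¹ * g) - (z x).coeff g) = 0 := by
  have := congrArg (fun a => a.coeff g) h
  simpa only [Finsupp.sum, coeff_sum, Finsupp.finsetSum_apply, sub_mul, one_mul, coeff_sub,
    Finsupp.coe_sub, Pi.sub_apply, coeff_single_mul_apply, coeff_zero, Finsupp.coe_zero,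
    Pi.zero_apply] using this

/-- The elements `t x - 1` are right linearly independent over `K[G]` (the forest has no cycle). -/
theorem free_right {K G X : Type*} [Ring K] [Group G] {t : X → G}
    {len : G → ℕ} (hl : IsPreLen t len) (z : X →₀ MonoidAlgebra K G)
    (h : z.sum (fun x zx => (single (t x) (1 : K) - 1) * zx) = 0) : z = 0 := by
  classical
  by_contra hz
  set E : Finset (X × G) := z.support.biUnion fun x => (z x).coeff.support.image fun g => (x, g)
    with hE
  have memE : ∀ x g, (x, g) ∈ E ↔ (z x).coeff g ≠ 0 := by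
    intro x g
    simp only [hE, Finset.mem_biUnion, Finset.mem_image, Finsupp.mem_support_iff, Prod.mk.injEq]
    constructor
    · rintro ⟨x', _, g', hg', rfl, rfl⟩
      exact hg'
    · intro hg
      refine ⟨x, ?_, g, hg, rfl, rfl⟩
      intro h0
      rw [h0] at hg
      simp at hg
  have hne : E.Nonempty := by
    obtain ⟨x, hx⟩ : ∃ x, z x ≠ 0 := by
      by_contra hcon
      push Not at hcon
      exact hz (Finsupp.ext hcon)
    obtain ⟨g, hg⟩ : ∃ g, (z x).coeff g ≠ 0 := by
      by_contra hcon
      push Not at hcon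
      apply hx
      rw [← coeff_eq_zero]
      exact Finsupp.ext hcon
    exact ⟨(x, g), (memE x g).2 hg⟩
  obtain ⟨⟨x0, h0⟩, he0, hmax⟩ :=
    Finset.exists_max_image E (fun e => max (len e.2) (len (t e.1 * e.2))) hne
  have hc0 : (z x0).coeff h0 ≠ 0 := (memE x0 h0).1 he0
  have hx0 : x0 ∈ z.support := by
    rw [Finsupp.mem_support_iff]
    intro h'
    rw [h'] at hc0
    simp at hc0
  -- general facts for a vertex of maximal height
  have P1 : ∀ g0, max (len h0) (len (t x0 * h0)) = len g0 → ∀ x,
      (z x).coeff ((t x)⁻¹ * g0) ≠ 0 → len (act t (x, false) g0) < len g0 := by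
    intro g0 hg0 x hx
    have h1 := hmax (x, (t x)⁻¹ * g0) ((memE _ _).2 hx)
    simp only [mul_inv_cancel_left] at h1
    rw [hg0] at h1
    have h2 := hl.step x ((t x)⁻¹ * g0)
    rw [mul_inv_cancel_left] at h2
    have h3 : len ((t x)⁻¹ * g0) ≤ len g0 := le_trans (le_max_left _ _) h1
    have : act t (x, false) g0 = (t x)⁻¹ * g0 := by simp [act]
    rw [this]
    omega
  have P2 : ∀ g0, max (len h0) (len (t x0 * h0)) = len g0 → ∀ x,
      (z x).coeff g0 ≠ 0 → len (act t (x, true) g0) < len g0 := by
    intro g0 hg0 x hx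
    have h1 := hmax (x, g0) ((memE _ _).2 hx)
    simp only at h1
    rw [hg0] at h1
    have h2 := hl.step x g0
    have h3 : len (t x * g0) ≤ len g0 := le_trans (le_max_right _ _) h1
    have : act t (x, true) g0 = t x * g0 := by simp [act]
    rw [this]
    omega
  rcases hl.step x0 h0 with hs | hs
  · -- the top vertex is `t x0 * h0`
    have hg0 : max (len h0) (len (t x0 * h0)) = len (t x0 * h0) := by
      rw [hs]; exact max_eq_right (Nat.le_succ _)
    have hdown : len (act t (x0, false) (t x0 * h0)) < len (t x0 * h0) := by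
      have : act t (x0, false) (t x0 * h0) = h0 := by simp [act]
      rw [this, hs]; exact Nat.lt_succ_self _
    have hsum := free_right_coeff z h (t x0 * h0)
    rw [Finset.sum_eq_single x0] at hsum
    · have hB : (z x0).coeff (t x0 * h0) = 0 := by
        by_contra hcon
        have := hl.uniq _ _ _ (P2 _ hg0 x0 hcon) hdown
        simp at this
      rw [hB, sub_zero, inv_mul_cancel_left] at hsum
      exact hc0 hsum
    · intro x _ hx
      have hA : (z x).coeff ((t x)⁻¹ * (t x0 * h0)) = 0 := by
        by_contra hcon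
        have := hl.uniq _ _ _ (P1 _ hg0 x hcon) hdown
        exact hx (congrArg Prod.fst this)
      have hB : (z x).coeff (t x0 * h0) = 0 := by
        by_contra hcon
        have := hl.uniq _ _ _ (P2 _ hg0 x hcon) hdown
        simp at this
      rw [hA, hB, sub_zero]
    · intro hcon; exact absurd hx0 hcon
  · -- the top vertex is `h0`
    have hg0 : max (len h0) (len (t x0 * h0)) = len h0 := by
      rw [hs]; exact max_eq_left (Nat.le_succ _)
    have hdown : len (act t (x0, true) h0) < len h0 := by
      have : act t (x0, true) h0 = t x0 * h0 := by simp [act]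
      rw [this, hs]; exact Nat.lt_succ_self _
    have hsum := free_right_coeff z h h0
    rw [Finset.sum_eq_single x0] at hsum
    · have hA : (z x0).coeff ((t x0)⁻¹ * h0) = 0 := by
        by_contra hcon
        have := hl.uniq _ _ _ (P1 _ hg0 x0 hcon) hdown
        simp at this
      rw [hA, zero_sub, neg_eq_zero] at hsum
      exact hc0 hsum
    · intro x _ hx
      have hA : (z x).coeff ((t x)⁻¹ * h0) = 0 := by
        by_contra hcon
        have := hl.uniq _ _ _ (P1 _ hg0 x hcon) hdown
        simp at this
      have hB : (z x).coeff h0 = 0 := by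
        by_contra hcon
        have := hl.uniq _ _ _ (P2 _ hg0 x hcon) hdown
        exact hx (congrArg Prod.fst this)
      rw [hA, hB, sub_zero]
    · intro hcon; exact absurd hx0 hcon

end Vale.Agent.Lib.LF
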