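import Vale.Agent.Lib.LF.Len
import Vale.Agent.Lib.LF.Ann

namespace Vale.Agent.Lib.LF

open MonoidAlgebra Vale.Agent.Lib.P201

/-- Key step for a locally free normal subgroup `N`. -/
theorem exists_ann_locallyFree {K G : Type*} [Ring K] [Group G] (N : Subgroup G) [N.Normal]
    (hN : ∀ H : Subgroup G, H ≤ N → H.FG → IsFreeGroup H) (n : ℕ)
    (a : Fin n → MonoidAlgebra K G) (ha : a ≠ 0) :
    ∃ c : Fin n → MonoidAlgebra K G,
      (∃ j, mapDomainRingHom K (QuotientGroup.mk' N) (c j) ≠ 0) ∧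
      ∀ b : Fin n → MonoidAlgebra K G, ∑ j, a j * b j = 0 → ∑ j, c j * b j = 0 := by
  classical
  set S : Finset G := Finset.univ.biUnion fun j => (a j).coeff.support with hSdef
  set F : Finset G := ((S ×ˢ S).image fun p => p.2 * p.1⁻¹).filter fun x => x ∈ N with hFdef
  set H : Subgroup G := Subgroup.closure (F : Set G) with hHdef
  have hHN : H ≤ N := by
    rw [hHdef, Subgroup.closure_le]
    intro x hx
    exact (Finset.mem_filter.1 hx).2
  have hFG : H.FG := ⟨F, rfl⟩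
  have : IsFreeGroup H := hN H hHN hFG
  let φ : FreeGroup (IsFreeGroup.Generators H) ≃* H := (IsFreeGroup.toFreeGroup H).symm
  have hS : ∀ g ∈ S, ∀ g' ∈ S, g' * g⁻¹ ∈ N → g' * g⁻¹ ∈ H := by
    intro g hg g' hg' hmem
    apply Subgroup.subset_closure
    refine Finset.mem_coe.2 (Finset.mem_filter.2 ⟨?_, hmem⟩)
    exact Finset.mem_image.2 ⟨(g, g'), Finset.mem_product.2 ⟨hg, hg'⟩, rfl⟩
  obtain ⟨len, hl, T, hST, hT, hR⟩ := exists_preLen N H hHN φ S hS
  refine exists_ann_vec hl (fun x => hHN (φ (FreeGroup.of x)).2) T hT hR n a ha fun j => ?_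
  refine Finset.Subset.trans ?_ hST
  intro g hg
  exact Finset.mem_biUnion.2 ⟨j, Finset.mem_univ j, hg⟩

end Vale.Agent.Lib.LF
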