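import Vale.Agent.Lib.LF.Defs
import Vale.Agent.Lib.P201.FKLen

namespace Vale.Agent.Lib.LF

open Vale.Agent.Lib.P201

/-- the down closed hull of one vertex stays in its right coset -/
lemma hull_one {G X : Type*} [Group G] (H : Subgroup G) {t : X → G} {len : G → ℕ}
    (hl : IsPreLen t len) (hH : ∀ y g, act t y g * g⁻¹ ∈ H) : ∀ (n : ℕ) (g : G), len g = n →
    ∃ T : Finset G, g ∈ T ∧ DownClosed t len T ∧ ∀ h ∈ T, h * g⁻¹ ∈ H := by
  classical
  intro n
  induction n using Nat.strong_induction_on with
  | _ n ih =>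
    intro g hg
    by_cases hex : ∃ y : X × Bool, len (act t y g) < len g
    · obtain ⟨y, hy⟩ := hex
      obtain ⟨T, hT1, hT2, hT3⟩ := ih (len (act t y g)) (by omega) (act t y g) rfl
      refine ⟨insert g T, Finset.mem_insert_self _ _, ?_, ?_⟩
      · intro h hh y' hy'
        rcases Finset.mem_insert.1 hh with rfl | hh
        · have := hl.uniq h y y' hy hy'
          rw [← this]
          exact Finset.mem_insert_of_mem hT1
        · exact Finset.mem_insert_of_mem (hT2 h hh y' hy')
      · intro h hh
        rcases Finset.mem_insert.1 hh with rfl | hh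
        · simp [H.one_mem]
        · have h1 := hT3 h hh
          have h2 := hH y g
          have : h * g⁻¹ = (h * (act t y g)⁻¹) * (act t y g * g⁻¹) := by group
          rw [this]
          exact H.mul_mem h1 h2
    · refine ⟨{g}, Finset.mem_singleton_self _, ?_, ?_⟩
      · intro h hh y' hy'
        rw [Finset.mem_singleton] at hh
        subst hh
        exact absurd ⟨y', hy'⟩ hex
      · intro h hh
        rw [Finset.mem_singleton] at hh
        subst hh
        simp [H.one_mem]

/-- the down closed hull of a finite set stays in the union of the right cosets -/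
lemma hull {G X : Type*} [Group G] (H : Subgroup G) {t : X → G} {len : G → ℕ}
    (hl : IsPreLen t len) (hH : ∀ y g, act t y g * g⁻¹ ∈ H) (S : Finset G) :
    ∃ T : Finset G, S ⊆ T ∧ DownClosed t len T ∧ ∀ h ∈ T, ∃ s ∈ S, h * s⁻¹ ∈ H := by
  classical
  induction S using Finset.induction_on with
  | empty =>
    exact ⟨∅, Finset.Subset.refl _, fun g hg => absurd hg (Finset.notMem_empty g),
      fun g hg => absurd hg (Finset.notMem_empty g)⟩
  | insert g S _ ih =>
    obtain ⟨T, hST, hT, hT3⟩ := ih
    obtain ⟨T1, hg1, hT1, hT13⟩ := hull_one H hl hH (len g) g rfl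
    refine ⟨T1 ∪ T, ?_, ?_, ?_⟩
    · intro h hh
      rcases Finset.mem_insert.1 hh with rfl | hh
      · exact Finset.mem_union_left _ hg1
      · exact Finset.mem_union_right _ (hST hh)
    · intro h hh y hy
      rcases Finset.mem_union.1 hh with hh | hh
      · exact Finset.mem_union_left _ (hT1 h hh y hy)
      · exact Finset.mem_union_right _ (hT h hh y hy)
    · intro h hh
      rcases Finset.mem_union.1 hh with hh | hh
      · exact ⟨g, Finset.mem_insert_self _ _, hT13 h hh⟩
      · obtain ⟨s, hs, hs'⟩ := hT3 h hh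
        exact ⟨s, Finset.mem_insert_of_mem hs, hs'⟩

/-- A free subgroup `H ≤ N` gives a height function; a finite set `S` whose elements lying in a
common coset of `N` lie in a common right coset of `H` has a finite down closed rooted hull. -/
theorem exists_preLen {G X : Type*} [Group G] (N : Subgroup G) [N.Normal] (H : Subgroup G)
    (hHN : H ≤ N) (φ : FreeGroup X ≃* H) (S : Finset G)
    (hS : ∀ g ∈ S, ∀ g' ∈ S, g' * g⁻¹ ∈ N → g' * g⁻¹ ∈ H) :
    ∃ len : G → ℕ, IsPreLen (fun x => (φ (FreeGroup.of x) : G)) len ∧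
      ∃ T : Finset G, S ⊆ T ∧ DownClosed (fun x => (φ (FreeGroup.of x) : G)) len T ∧
        Rooted N len T := by
  classical
  set t : X → G := fun x => (φ (FreeGroup.of x) : G) with ht
  let r : G → G := fun g => (Quotient.mk (QuotientGroup.rightRel H) g).out
  have hr : ∀ g, g * (r g)⁻¹ ∈ H := by
    intro g
    have h1 : (QuotientGroup.rightRel H) (r g) g := Quotient.mk_out (s := QuotientGroup.rightRel H) g
    exact QuotientGroup.rightRel_apply.1 h1
  let n : G → H := fun g => ⟨g * (r g)⁻¹, hr g⟩
  let e : X × Bool → H := fun y => φ (FreeGroup.mk [y])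
  have he : ∀ y g, act t y g = (e y : G) * g := by
    rintro ⟨x, b⟩ g
    cases b
    · have : FreeGroup.mk [(x, false)] = (FreeGroup.of x)⁻¹ := by
        simp [FreeGroup.of, FreeGroup.inv_mk, FreeGroup.invRev]
      simp [act, e, this, ht]
    · simp [act, e, ht, FreeGroup.of]
  have hrH : ∀ (m : H) g, r ((m : G) * g) = r g := by
    intro m g
    have : Quotient.mk (QuotientGroup.rightRel H) ((m : G) * g)
        = Quotient.mk (QuotientGroup.rightRel H) g := by
      apply Quotient.sound
      change (QuotientGroup.rightRel H) ((m : G) * g) g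
      rw [QuotientGroup.rightRel_apply]
      have h1 : g * ((m : G) * g)⁻¹ = (m : G)⁻¹ := by group
      rw [h1]
      exact H.inv_mem m.2
    simp only [r, this]
  have hn : ∀ (m : H) g, n ((m : G) * g) = m * n g := by
    intro m g
    apply Subtype.ext
    simp only [n, hrH, Subgroup.coe_mul, mul_assoc]
  have hlen : ∀ y g, φ.symm (n (act t y g)) = FreeGroup.mk [y] * φ.symm (n g) := by
    intro y g
    rw [he, hn, map_mul]
    simp [e]
  have hpre : IsPreLen t (fun g => (φ.symm (n g)).norm) := by
    refine ⟨?_, ?_, ?_⟩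
    · intro x g
      have h := hlen (x, true) g
      have h2 : act t (x, true) g = t x * g := by simp [act]
      rw [h2] at h
      change (φ.symm (n (t x * g))).norm = _ ∨ _ = (φ.symm (n (t x * g))).norm + 1
      rw [h]
      exact norm_letter_mul _ _
    · intro g y y' h1 h2
      change (φ.symm (n (act t y g))).norm < _ at h1
      change (φ.symm (n (act t y' g))).norm < _ at h2
      rw [hlen] at h1 h2
      have e1 := head_of_norm_lt _ _ h1
      have e2 := head_of_norm_lt _ _ h2
      rw [e1] at e2
      simp only [Option.some.injEq, Prod.mk.injEq] at e2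
      ext
      · exact e2.1
      · have := e2.2
        simpa using this
    · intro g hg
      obtain ⟨y, hy⟩ := exists_norm_lt (φ.symm (n g)) hg
      refine ⟨y, ?_⟩
      rw [hlen]
      exact hy
  refine ⟨fun g => (φ.symm (n g)).norm, hpre, ?_⟩
  have hH : ∀ y g, act t y g * g⁻¹ ∈ H := by
    intro y g
    rw [he]
    simp
  obtain ⟨T, hST, hT, hT3⟩ := hull H hpre hH S
  refine ⟨T, hST, hT, ?_⟩
  intro h hh h' hh' l1 l2 hN
  obtain ⟨s, hs, hsH⟩ := hT3 h hh
  obtain ⟨s', hs', hsH'⟩ := hT3 h' hh'
  have hN' : h' * h⁻¹ ∈ N := (Subgroup.Normal.mem_comm_iff inferInstance).mp hN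
  have hss : s' * s⁻¹ ∈ N := by
    have : s' * s⁻¹ = (h' * s'⁻¹)⁻¹ * (h' * h⁻¹) * (h * s⁻¹) := by group
    rw [this]
    exact N.mul_mem (N.mul_mem (N.inv_mem (hHN hsH')) hN') (hHN hsH)
  have hssH := hS s hs s' hs' hss
  have hhH : h' * h⁻¹ ∈ H := by
    have : h' * h⁻¹ = (h' * s'⁻¹) * (s' * s⁻¹) * (h * s⁻¹)⁻¹ := by group
    rw [this]
    exact H.mul_mem (H.mul_mem hsH' hssH) (H.inv_mem hsH)
  have hrr : r h' = r h := by
    have := hrH ⟨h' * h⁻¹, hhH⟩ h
    simpa using this
  have k1 : n h = 1 := by
    have : φ.symm (n h) = 1 := FreeGroup.norm_eq_zero.mp l1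
    simpa using this
  have k2 : n h' = 1 := by
    have : φ.symm (n h') = 1 := FreeGroup.norm_eq_zero.mp l2
    simpa using this
  have j1 : h * (r h)⁻¹ = 1 := congrArg Subtype.val k1
  have j2 : h' * (r h')⁻¹ = 1 := congrArg Subtype.val k2
  rw [mul_inv_eq_one] at j1 j2
  rw [j1, j2, hrr]

end Vale.Agent.Lib.LF
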