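import Vale.Agent.Lib.LF.Key
import Vale.Agent.Lib.LF.Anti

namespace Vale.Agent.Lib.LF

open MonoidAlgebra

/-- scalar form of the key step. -/
theorem exists_ann_one {K G : Type*} [Ring K] [Group G] (N : Subgroup G) [N.Normal]
    (hN : ∀ H : Subgroup G, H ≤ N → H.FG → IsFreeGroup H)
    (a : MonoidAlgebra K G) (ha : a ≠ 0) :
    ∃ c : MonoidAlgebra K G, mapDomainRingHom K (QuotientGroup.mk' N) c ≠ 0 ∧
      ∀ b : MonoidAlgebra K G, a * b = 0 → c * b = 0 := by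
  obtain ⟨c, ⟨j, hj⟩, hc⟩ := exists_ann_locallyFree (K := K) N hN 1 (fun _ => a)
    (fun h => ha (congrFun h 0))
  refine ⟨c 0, ?_, fun b hb => ?_⟩
  · rwa [Subsingleton.elim j 0] at hj
  · simpa using hc (fun _ => b) (by simpa using hb)

/-- No zero divisors passes from `K[G/N]` to `K[G]`. -/
theorem noZeroDivisors {K G : Type*} [Ring K] [Group G] (N : Subgroup G) [N.Normal]
    (hN : ∀ H : Subgroup G, H ≤ N → H.FG → IsFreeGroup H)
    (h : NoZeroDivisors (MonoidAlgebra K (G ⧸ N))) : NoZeroDivisors (MonoidAlgebra K G) := by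
  obtain ⟨ι, κ, hι, hκ, hκι, hι0, hκ0, hπ⟩ := exists_antiIso K G N
  refine ⟨fun {a b} hab => ?_⟩
  by_contra hne
  rw [not_or] at hne
  obtain ⟨ha, hb⟩ := hne
  obtain ⟨c, hc, hcb⟩ := exists_ann_one (K := K) N hN a ha
  have h1 : c * b = 0 := hcb b hab
  have hιb : ι b ≠ 0 := fun h => hb (by rw [← hκι b, h, hκ0])
  obtain ⟨d, hd, hdb⟩ := exists_ann_one (K := Kᵐᵒᵖ) N hN (ι b) hιb
  have h2 : ι b * ι c = 0 := by rw [← hι, h1, hι0]
  have h3 : d * ι c = 0 := hdb _ h2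
  have h4 : c * κ d = 0 := by
    have : κ (d * ι c) = 0 := by rw [h3, hκ0]
    rwa [hκ, hκι] at this
  have h5 : mapDomainRingHom K (QuotientGroup.mk' N) c *
      mapDomainRingHom K (QuotientGroup.mk' N) (κ d) = 0 := by
    rw [← map_mul, h4, map_zero]
  rcases h.eq_zero_or_eq_zero_of_mul_eq_zero h5 with h6 | h6
  · exact hc h6
  · exact hd (hπ d h6)

end Vale.Agent.Lib.LF
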