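import Vale.Agent.Lib.LF.NZD
import Vale.Agent.Lib.LF.DF

namespace Vale.Agent.Lib.LF

open MonoidAlgebra

/-- `N` is residually locally free relative to `G`: finitely many nontrivial elements of `N` can be
separated from `1` in a quotient `G ⧸ M`, `M ≤ N` normal in `G`, in which the image of `N` is
locally free. -/
def SepLocallyFree {G : Type*} [Group G] (N : Subgroup G) : Prop :=
  ∀ D : Finset G, (∀ d ∈ D, d ∈ N ∧ d ≠ 1) →
    ∃ (M : Subgroup G) (_ : M.Normal), M ≤ N ∧ (∀ d ∈ D, d ∉ M) ∧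
      ∀ H : Subgroup (G ⧸ M), H ≤ N.map (QuotientGroup.mk' M) → H.FG → IsFreeGroup H

theorem noZeroDivisors_of_sep {K G : Type*} [Ring K] [Group G] (N : Subgroup G) [N.Normal]
    (hN : SepLocallyFree N)
    (h : NoZeroDivisors (MonoidAlgebra K (G ⧸ N))) : NoZeroDivisors (MonoidAlgebra K G) := by
  classical
  refine ⟨fun {a b} hab => ?_⟩
  by_contra hne
  rw [not_or] at hne
  obtain ⟨ha, hb⟩ := hne
  obtain ⟨S, hS⟩ : ∃ S : Finset G, S = a.coeff.support ∪ b.coeff.support := ⟨_, rfl⟩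
  obtain ⟨D, hD⟩ : ∃ D : Finset G, D = ((S ×ˢ S).image (fun p => p.1⁻¹ * p.2)).filter
      (fun d => d ∈ N ∧ d ≠ 1) := ⟨_, rfl⟩
  obtain ⟨M, hMn, hMN, hDM, hfree⟩ := hN D (by
    intro d hd
    rw [hD] at hd
    exact (Finset.mem_filter.mp hd).2)
  have e : (G ⧸ M) ⧸ (N.map (QuotientGroup.mk' M)) ≃* G ⧸ N :=
    QuotientGroup.quotientQuotientEquivQuotient M N hMN
  have h' : NoZeroDivisors (MonoidAlgebra K ((G ⧸ M) ⧸ (N.map (QuotientGroup.mk' M)))) :=
    (mapDomainRingEquiv K e).injective.noZeroDivisors _ (map_zero _) (map_mul _)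
  have h2 : NoZeroDivisors (MonoidAlgebra K (G ⧸ M)) :=
    noZeroDivisors (K := K) (N.map (QuotientGroup.mk' M)) hfree h'
  have hinj : Set.InjOn (QuotientGroup.mk' M) (S : Set G) := by
    intro g hg g' hg' heq
    rw [QuotientGroup.mk'_apply, QuotientGroup.mk'_apply] at heq
    have hm : g⁻¹ * g' ∈ M := QuotientGroup.eq.1 heq
    by_contra hgg
    refine hDM (g⁻¹ * g') ?_ hm
    rw [hD]
    refine Finset.mem_filter.mpr ⟨Finset.mem_image.mpr ⟨(g, g'),
      Finset.mem_product.mpr ⟨hg, hg'⟩, rfl⟩, hMN hm, ?_⟩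
    intro h1
    exact hgg (inv_mul_eq_one.mp h1)
  have key : ∀ x : MonoidAlgebra K G, x.coeff.support ⊆ S →
      mapDomainRingHom K (QuotientGroup.mk' M) x = 0 → x = 0 := by
    intro x hx hπ
    have h0 : Finsupp.mapDomain (QuotientGroup.mk' M) x.coeff
        = Finsupp.mapDomain (QuotientGroup.mk' M) (0 : G →₀ K) := by
      have := congrArg coeff hπ
      simpa using this
    have hx0 : x.coeff = 0 :=
      Finsupp.mapDomain_injOn (S : Set G) hinj (by exact_mod_cast hx) (by simp) h0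
    exact coeff_eq_zero.1 hx0
  have h5 : mapDomainRingHom K (QuotientGroup.mk' M) a *
      mapDomainRingHom K (QuotientGroup.mk' M) b = 0 := by
    rw [← map_mul, hab, map_zero]
  rcases h2.eq_zero_or_eq_zero_of_mul_eq_zero h5 with h6 | h6
  · exact ha (key a (by rw [hS]; exact Finset.subset_union_left) h6)
  · exact hb (key b (by rw [hS]; exact Finset.subset_union_right) h6)

/-- a nonzero element whose support is separated by `M` stays nonzero in `K[G ⧸ M]`. -/
lemma map_ne_zero_of_separated {K G : Type*} [Ring K] [Group G] (M : Subgroup G) [M.Normal]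
    (a : MonoidAlgebra K G) (ha : a ≠ 0)
    (hsep : ∀ g ∈ a.coeff.support, ∀ g' ∈ a.coeff.support, g ≠ g' → g⁻¹ * g' ∉ M) :
    mapDomainRingHom K (QuotientGroup.mk' M) a ≠ 0 := by
  classical
  intro hπ
  have hinj : Set.InjOn (QuotientGroup.mk' M) (a.coeff.support : Set G) := by
    intro g hg g' hg' heq
    by_contra hne
    refine hsep g hg g' hg' hne ?_
    rw [QuotientGroup.mk'_apply, QuotientGroup.mk'_apply] at heq
    exact QuotientGroup.eq.1 heq
  have h0 : Finsupp.mapDomain (QuotientGroup.mk' M) a.coeff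
      = Finsupp.mapDomain (QuotientGroup.mk' M) (0 : G →₀ K) := by
    have := congrArg coeff hπ
    simpa using this
  have ha0 : a.coeff = 0 :=
    Finsupp.mapDomain_injOn (a.coeff.support : Set G) hinj (by simp) (by simp) h0
  exact ha (coeff_eq_zero.1 ha0)

theorem dedekindFinite_matrix_of_sep {K G : Type*} [Ring K] [Group G] (N : Subgroup G) [N.Normal]
    (hN : SepLocallyFree N) (n : ℕ)
    (h : IsDedekindFiniteMonoid (Matrix (Fin n) (Fin n) (MonoidAlgebra K (G ⧸ N)))) :
    IsDedekindFiniteMonoid (Matrix (Fin n) (Fin n) (MonoidAlgebra K G)) := by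
  classical
  refine ⟨?_⟩
  intro A B hAB
  by_contra hne
  have hE : (1 - B * A) ≠ 0 := by
    intro h0
    exact hne (sub_eq_zero.1 h0).symm
  obtain ⟨i, j, hij⟩ : ∃ i j, (1 - B * A) i j ≠ 0 := by
    by_contra hcon
    push Not at hcon
    exact hE (funext fun i => funext fun j => hcon i j)
  obtain ⟨a, ha⟩ : ∃ a, a = (1 - B * A) i j := ⟨_, rfl⟩
  rw [← ha] at hij
  -- the finite set to be separated
  obtain ⟨D, hD⟩ : ∃ D : Finset G, D = ((a.coeff.support ×ˢ a.coeff.support).image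
      (fun p => p.1⁻¹ * p.2)).filter (fun d => d ∈ N ∧ d ≠ 1) := ⟨_, rfl⟩
  obtain ⟨M, hMn, hMN, hMD, hfree⟩ := hN D (by
    intro d hd
    rw [hD, Finset.mem_filter] at hd
    exact hd.2)
  have hsep : ∀ g ∈ a.coeff.support, ∀ g' ∈ a.coeff.support, g ≠ g' → g⁻¹ * g' ∉ M := by
    intro g hg g' hg' hgg' hmem
    refine hMD (g⁻¹ * g') ?_ hmem
    rw [hD, Finset.mem_filter]
    refine ⟨Finset.mem_image.2 ⟨(g, g'), Finset.mem_product.2 ⟨hg, hg'⟩, rfl⟩, hMN hmem, ?_⟩
    intro h1
    exact hgg' (inv_mul_eq_one.1 h1)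
  have hπa := map_ne_zero_of_separated M a hij hsep
  -- the image of `N` in `G ⧸ M`
  have hN' : (N.map (QuotientGroup.mk' M)).Normal :=
    Subgroup.Normal.map inferInstance _ (QuotientGroup.mk'_surjective M)
  have e : (G ⧸ M) ⧸ N.map (QuotientGroup.mk' M) ≃* G ⧸ N :=
    QuotientGroup.quotientQuotientEquivQuotient M N hMN
  have hDF' : IsDedekindFiniteMonoid (Matrix (Fin n) (Fin n)
      (MonoidAlgebra K ((G ⧸ M) ⧸ N.map (QuotientGroup.mk' M)))) :=
    IsDedekindFiniteMonoid.of_injective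
      ((MonoidAlgebra.mapDomainRingEquiv K e).mapMatrix (m := Fin n))
      (RingEquiv.injective _)
  have hDF := dedekindFinite_matrix (K := K) (N.map (QuotientGroup.mk' M)) hfree n hDF'
  -- push the identity to `G ⧸ M`
  obtain ⟨p, hp⟩ : ∃ p, p = mapDomainRingHom K (QuotientGroup.mk' M) := ⟨_, rfl⟩
  have h1 : p.mapMatrix A * p.mapMatrix B = 1 := by rw [← map_mul, hAB, map_one]
  have h2 : p.mapMatrix B * p.mapMatrix A = 1 := hDF.mul_eq_one_symm h1
  have h3 : p.mapMatrix (1 - B * A) = 0 := by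
    rw [map_sub, map_one, map_mul, h2, sub_self]
  have h4 : p a = 0 := by
    have := congrFun (congrFun h3 i) j
    rw [ha]
    simpa using this
  rw [hp] at h4
  exact hπa h4

end Vale.Agent.Lib.LF
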